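import Vale.Agent.P275RL.Pf
import Vale.Agent.P275MB.Nice

/-!
# P275: Riemann-Hilbert in families, assembly
-/

set_option linter.all false

open scoped Topology Matrix.Norms.Operator
open Filter Set Metric
open Vale.Agent.P275GC (At)
open Vale.Agent.P275NA (Cy Fm Mn)
open Vale.Agent.P275MO Vale.Agent.P275MB Vale.Agent.P275Z Vale.Agent.P275RL

noncomputable section

namespace Vale.Agent.P275RA

variable {C : Type} [TopologicalSpace C] {n g : ℕ} {A : At C} {l : Cy A ℂ} {d : ℤ} {τ : Ty n}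

theorem rl_equiv : Equivalence (BFr.Rl (g := g) (d := d) τ) := by
  refine ⟨fun p => ⟨1, τ.H.one_mem, by simp, by simp, cj_one.2 rfl⟩, ?_, ?_⟩
  · rintro p p' ⟨h, m, e, a, b⟩
    refine ⟨h⁻¹, inv_mem_alg m e, det_inv_ne e, ?_, cj_symm b e⟩
    rw [a, inv_inv' e, mul_assoc, mul_assoc, mul_inv' e, mul_one, mul_inv_can e]
  · rintro p p' p'' ⟨h, m, e, a, b⟩ ⟨h', m', e', a', b'⟩
    refine ⟨h * h', τ.H.mul_mem m m', by rw [Matrix.det_mul]; exact mul_ne_zero e e', ?_,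
      cj_trans b b'⟩
    rw [a', a, Matrix.mul_inv_rev]
    simp only [mul_assoc]

/-- the blocks used for the homeomorphism -/
structure Bk (P : Loc A l g n d) : Prop where
  exr : EXR P
  act : ACT P
  iso : ISO P
  cont : CONT P
  inj : INJ P
  stb : STB P
  inv : INV P

variable {P : Loc A l g n d} {z z' : Ob A l τ} {ρ ρ' : Tup g n}

/-- the framed Betti object -/
def Bk.fr (B : Bk P) (z : Ob A l τ) (h : Rel P z.1 ρ) : BFr g d τ.q :=
  ⟨(z.1.R, ρ), z.2.2, h.1.gen, B.exr.2 _ _ h⟩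

theorem Bk.wd (B : Bk P) (h : Rel P z.1 ρ) (h' : Rel P z'.1 ρ') (e : z.pt = z'.pt) :
    (B.fr z h).pt τ = (B.fr z' h').pt τ := by
  obtain ⟨r, h1, h2, a, a'⟩ := Ob.ex2 z z'
  obtain ⟨φ, k, m, f⟩ := (pt_eq_iff' a a').1 e
  have dk := IsoBy.det_h a f
  refine (Quot.sound ⟨k, m, dk, ?_, B.iso _ _ _ _ r h1 h2 φ k h h' f⟩).symm
  show z.1.R = k⁻¹ * z'.1.R * k
  rw [IsoBy.R a a' f, mul_assoc, mul_assoc, inv_mul' dk, mul_one, inv_mul_can dk]

theorem Bk.pt_eq (B : Bk P) (h : Rel P z.1 ρ) (h' : Rel P z'.1 ρ') (ex : z'.1.x = z.1.x)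
    (e : (B.fr z h).pt τ = (B.fr z' h').pt τ) : z.pt = z'.pt := by
  obtain ⟨k, m, dk, a, b⟩ := rl_equiv.eqvGen_iff.1 (Quot.eqvGen_exact e)
  obtain ⟨r, h1, h2, φ, c, f⟩ := B.inj _ _ _ (B.act _ _ _ k h dk b) h' ex a
  obtain ⟨r', h1', h2', a', s⟩ := z.2.1
  have o : IsOb A l τ.q (z.1.act k) :=
    ⟨⟨r', h1', h2', Good.act (A := A.res r' h1' h2') a' dk, s⟩, (show z'.1.R = (z.1.act k).R from a) ▸ z'.2.2⟩
  have e1 : Ob.pt (τ := τ) ⟨_, o⟩ = z.pt :=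
    Quot.sound ⟨r, h1, h2, _, k, m, isoBy_act (A := A.res r h1 h2) z.1 k⟩
  exact e1.symm.trans (Quot.sound ⟨r, h1, h2, φ, _, τ.H.smul_mem τ.H.one_mem c, f⟩)

theorem mem_DR {V : Set C} : z.pt ∈ DR A l d τ V ↔ z.1.lam = 1 ∧ z.1.x ∈ V ∧ Gen d z.1.R := by
  refine and_congr_right fun _ => and_congr_right fun _ => ⟨fun h => ?_, fun h => ?_⟩
  · obtain ⟨k, -, a, b⟩ := R_of_pt z.pt.pt_rep
    exact b ▸ gen_conj h a
  · obtain ⟨k, -, a, b⟩ := R_of_pt z.pt.pt_rep.symm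
    exact b ▸ gen_conj h a

theorem Bk.ex (B : Bk P) (h : z.pt ∈ DR A l d τ P.V) : ∃ ρ, Rel P z.1 ρ :=
  B.exr.1 _ ⟨Ob.ex z, (mem_DR.1 h).1, (mem_DR.1 h).2.2⟩ (mem_DR.1 h).2.1

theorem Bk.ex' (B : Bk P) (y : DR A l d τ P.V) : ∃ ρ, Rel P y.1.rep.1 ρ :=
  B.ex (y.1.pt_rep.symm ▸ y.2)

/-- the monodromy map -/
def Bk.fw (B : Bk P) (τ : Ty n) (y : DR A l d τ P.V) : P.V × Bet g d τ :=
  (⟨y.1.x, y.2.2.1⟩, (B.fr y.1.rep (B.ex' y).choose_spec).pt τ)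

theorem Bk.fw_eq (B : Bk P) (hz : z.pt ∈ DR A l d τ P.V) (h : Rel P z.1 ρ) :
    (B.fw τ ⟨z.pt, hz⟩).2 = (B.fr z h).pt τ := B.wd _ h z.pt.pt_rep

theorem Bk.fw_inj (B : Bk P) : Function.Injective (B.fw τ) := fun y y' e => by
  have e1 : y.1.x = y'.1.x := congrArg (fun p => (p.1 : C)) e
  refine Subtype.ext (y.1.pt_rep.symm.trans ((B.pt_eq _ _ ?_ (congrArg Prod.snd e)).trans
    y'.1.pt_rep))
  rw [← x_pt, ← x_pt, Mod.pt_rep, Mod.pt_rep, e1]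

theorem Bk.loc (B : Bk P) (t₀ : P.V × BFr g d τ.q) : ∃ V ∈ 𝓝 t₀, ∃ F : V → DR A l d τ P.V,
    Continuous F ∧ ∀ t, B.fw τ (F t) = (t.1.1, t.1.2.pt τ) := by
  obtain ⟨F, r, h1, h2, V, hV, f, e⟩ := B.inv τ.q τ.tr t₀
  have o : ∀ t : V, IsOb A l τ.q (F t) := fun t =>
    ⟨⟨r, h1, h2, f.good t t.2, B.stb _ _ r h1 h2 (e t t.2).2.2 (f.good t t.2)⟩,
      (e t t.2).2.1 ▸ t.1.2.2.1⟩
  have m : ∀ t : V, Ob.pt (τ := τ) ⟨_, o t⟩ ∈ DR A l d τ P.V := fun t =>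
    mem_DR.2 ⟨(e t t.2).2.2.1.lam, (e t t.2).2.2.2.1, (e t t.2).2.2.1.gen⟩
  refine ⟨V, hV, fun t => ⟨_, m t⟩, Continuous.subtype_mk (continuous_iff_continuousAt.2 fun t =>
    FamAt.continuousAt ⟨r, h1, h2, univ, univ_mem, FamOn.comp f
      continuous_subtype_val.continuousOn fun s _ => s.2⟩) _, fun t => Prod.ext
    (Subtype.ext (e t t.2).1) ((B.fw_eq (m t) (e t t.2).2.2).trans (congrArg _
      (Subtype.ext (Prod.ext (e t t.2).2.1 rfl))))⟩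

theorem Bk.fw_surj (B : Bk P) : Function.Surjective (B.fw τ) := by
  rintro ⟨x, ⟨p⟩⟩
  obtain ⟨V, hV, F, -, e⟩ := B.loc (x, p)
  exact ⟨F ⟨_, mem_of_mem_nhds hV⟩, e _⟩

theorem Bk.fw_cont [T2Space C] (B : Bk P) (k : KUR n A l) : Continuous (B.fw τ) := by
  refine ((cont_x.comp continuous_subtype_val).subtype_mk _).prodMk
    (continuous_iff_continuousAt.2 fun y => ?_)
  obtain ⟨K, hK⟩ := k τ y.1
  let W : Set (DR A l d τ P.V) := {m | m.1 ∈ K.e.source}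
  have m : ∀ s : W, (cob K s.1.1 s.2).pt ∈ DR A l d τ P.V := fun s => (cob_pt K s.2).symm ▸ s.1.2
  choose ρ hρ using fun s : W => B.ex (m s)
  have f := FamOn.comp (famOn_chart K) (u := fun s : W => s.1.1) (V' := univ)
    (continuous_subtype_val.comp continuous_subtype_val).continuousOn fun s _ => s.2
  have c : Continuous fun s : W => (B.fr _ (hρ s)).pt τ := continuous_quot_mk.comp
    (((continuousOn_univ.1 f.R).prodMk
      (continuousOn_univ.1 (B.cont _ _ ρ univ _ _ _ f fun s _ => hρ s))).subtype_mk _)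
  refine ContinuousOn.continuousAt (s := W) (continuousOn_iff_continuous_restrict.2
    (c.congr fun s => ?_)) ((K.e.open_source.preimage continuous_subtype_val).mem_nhds hK)
  exact (B.fw_eq (m s) (hρ s)).symm.trans
    (congrArg (fun y => (B.fw τ y).2) (Subtype.ext (cob_pt K s.2)))

/-- the homeomorphism -/
def Bk.Ψ (B : Bk P) (s : Std A l n d) (k : KUR n A l) (τ : Ty n) :
    DR A l d τ P.V ≃ₜ P.V × Bet g d τ where
  toEquiv := Equiv.ofBijective (B.fw τ) ⟨B.fw_inj, B.fw_surj⟩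
  continuous_toFun := have := s.t2; B.fw_cont k
  continuous_invFun := by
    have := s.t2
    have := s.cpt
    have := P.opn.locallyCompactSpace
    refine isQuotientMap_quot_mk.continuous_lift_prod_right
      (continuous_iff_continuousAt.2 fun t => ?_)
    obtain ⟨V, hV, F, c, e⟩ := B.loc t
    refine ContinuousOn.continuousAt (s := V) (continuousOn_iff_continuous_restrict.2
      (c.congr fun s => ?_)) hV
    exact (Equiv.ofBijective (B.fw τ) ⟨B.fw_inj, B.fw_surj⟩).eq_symm_apply.2 (e s)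

/-- **Riemann-Hilbert in families** from the blocks -/
theorem rhf (kur : ∀ (S : Sit) (T : S.Atl), KUR S.n T.A T.l) (top : TOPF)
    (h : ∀ (S : Sit) (T : S.Atl) (P : Loc T.A T.l S.g S.n (P275ST.deg S.D)), EXR P ∧ ACT P ∧ ISO P ∧
      OFFR P ∧ TRN P ∧ CONT P ∧ INJ P ∧ STB P ∧ INV P ∧ MOV P ∧ FLT P) (mon : MONR) : RHF := by
  intro S T
  obtain ⟨N, P, t, cov, conn, tr, i0, hp, hu, k, hk, hγ⟩ := top S T
  choose exr act iso off trn cont inj stb inv mov flt using fun i => h S T (P i)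
  have B : ∀ i, Bk (P i) := fun i => ⟨exr i, act i, iso i, cont i, inj i, stb i, inv i⟩
  refine ⟨⟨⟨N, fun i => (P i).V, fun i => (P i).opn, cov, conn, t, fun i => Rel (P i), act,
    fun i j z ρ ρ' a b c => ?_, off, fun i z z' ρ ρ' r h1 h2 φ h a b c => ⟨0, ?_⟩,
    fun i T _ F s f e => ?_, fun i => mov i (conn i), fun τ _ i => (B i).Ψ T.std (kur S T) τ,
    fun τ _ i z hz => ⟨(B i).ex hz, fun ρ a => ⟨(B i).fr z a, rfl, rfl, (B i).fw_eq hz a⟩⟩⟩,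
    i0, hp, fun z ρ => mon S T (P i0) hp hu k hk hγ z.1 ρ, (flt i0 _ hp).some⟩⟩
  · obtain ⟨hx, -⟩ := a.2
    exact trn i (P j) (t i j) z ρ ρ' hx b a (tr i j _ hx b).some c
  · rw [zero_smul, NormedSpace.exp_zero, one_mul]
    exact iso i z z' ρ ρ' r h1 h2 φ h a b c
  · obtain ⟨r, h1, h2, V, hV, f⟩ := f
    have : ∀ s ∈ V ∩ {s | (F s).lam = 1 ∧ (F s).x ∈ (P i).V ∧ Gen (P275ST.deg S.D) (F s).R},
        ∃ ρ, Rel (P i) (F s) ρ := fun s a =>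
      (exr i).1 _ ⟨⟨r, h1, h2, f.good s a.1⟩, a.2.1, a.2.2.2⟩ a.2.2.1
    choose! ρ hρ using this
    exact ⟨_, inter_mem hV e, ρ, cont i _ F ρ _ r h1 h2 (FamOn.sub f inter_subset_left) hρ, hρ⟩

end Vale.Agent.P275RA
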